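import Vale.Agent.P039.Sw.Split

/-! The split colour class: main argument. -/

namespace Vale.Agent.P039.Sw

open Vale.Agent.P039
open SimpleGraph

variable {V : Type*} {G : SimpleGraph V}

theorem side_pow (R : Rotation G) (d : G.Dart) (n : ℕ) :
    side R ((R.facePerm ^ n) d) = side R d := by
  induction n with
  | zero => rfl
  | succ n ih =>
    rw [pow_succ', Equiv.Perm.mul_apply]
    exact (R.faceOf_facePerm _).trans ih

/-- A function constant along the boundary between two positions. -/
theorem const_between (R : Rotation G) (x : V → ZMod 2) (d : G.Dart) {a b : ℕ} (hab : a ≤ b)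
    (h : ∀ n, a ≤ n → n < b → x ((R.facePerm ^ n) d).fst = x ((R.facePerm ^ n) d).snd) :
    x ((R.facePerm ^ a) d).fst = x ((R.facePerm ^ b) d).fst := by
  induction b, hab using Nat.le_induction with
  | base => rfl
  | succ b hab ih =>
    rw [pow_fst_succ, ← h b hab (Nat.lt_succ_self b)]
    exact ih (fun n h1 h2 => h n h1 (h2.trans (Nat.lt_succ_self b)))

/-- positions of the four big neighbours of an alternating face, seen from colour 1. -/
theorem alternating_positions [Fintype V] (R : Rotation G) {c : R.Face → Fin 3}
    (hc : Proper R c) {u : R.Face} (hu0 : c u = 0) (hu : Alternating R c u) :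
    ∃ (e : G.Dart) (p m q m' : ℕ), side R e = u ∧ p < m ∧ m < q ∧ q < size R u ∧
      (m' < p ∨ q < m') ∧
      (∀ n < size R u, size R (across R e n) ≠ 4 → c (across R e n) = 1 → n = p ∨ n = q) ∧
      (∀ n < size R u, size R (across R e n) ≠ 4 → c (across R e n) = 2 → n = m ∨ n = m') ∧
      size R (across R e p) ≠ 4 ∧ size R (across R e q) ≠ 4 ∧
      c (across R e p) = 1 ∧ c (across R e q) = 1 := by
  obtain ⟨e, i, j, k, he, hi, hij, hjk, hk, hbig, c1, c2, c3⟩ := hu
  have hcol : ∀ n, c (across R e n) ≠ 0 := by
    intro n h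
    have := hc ((R.facePerm ^ n) e)
    rw [side_pow, he, hu0] at this
    exact this h.symm
  have b0 : size R (across R e 0) ≠ 4 := (hbig 0 (by omega)).2 (Or.inl rfl)
  have bi : size R (across R e i) ≠ 4 := (hbig i (by omega)).2 (Or.inr (Or.inl rfl))
  have bj : size R (across R e j) ≠ 4 := (hbig j (by omega)).2 (Or.inr (Or.inr (Or.inl rfl)))
  have bk : size R (across R e k) ≠ 4 := (hbig k hk).2 (Or.inr (Or.inr (Or.inr rfl)))
  have h0 := hcol 0
  have hi0 := hcol i
  have hj0 := hcol j
  have hk0 := hcol k
  have hcases : (c (across R e 0) = 1 ∧ c (across R e i) = 2 ∧ c (across R e j) = 1 ∧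
      c (across R e k) = 2) ∨ (c (across R e 0) = 2 ∧ c (across R e i) = 1 ∧
      c (across R e j) = 2 ∧ c (across R e k) = 1) := by
    revert c1 c2 c3 h0 hi0 hj0 hk0
    generalize c (across R e 0) = x0
    generalize c (across R e i) = x1
    generalize c (across R e j) = x2
    generalize c (across R e k) = x3
    revert x0 x1 x2 x3
    decide
  rcases hcases with ⟨g0, gi, gj, gk⟩ | ⟨g0, gi, gj, gk⟩
  · refine ⟨e, 0, i, j, k, he, hi, hij, by omega, Or.inr hjk, ?_, ?_, b0, bj, g0, gj⟩
    · intro n hn hb h1
      rcases (hbig n hn).1 hb with rfl | rfl | rfl | rfl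
      · exact Or.inl rfl
      · rw [gi] at h1; exact absurd h1 (by decide)
      · exact Or.inr rfl
      · rw [gk] at h1; exact absurd h1 (by decide)
    · intro n hn hb h1
      rcases (hbig n hn).1 hb with rfl | rfl | rfl | rfl
      · rw [g0] at h1; exact absurd h1 (by decide)
      · exact Or.inl rfl
      · rw [gj] at h1; exact absurd h1 (by decide)
      · exact Or.inr rfl
  · refine ⟨e, i, j, k, 0, he, hij, hjk, hk, Or.inl hi, ?_, ?_, bi, bk, gi, gk⟩
    · intro n hn hb h1
      rcases (hbig n hn).1 hb with rfl | rfl | rfl | rfl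
      · rw [g0] at h1; exact absurd h1 (by decide)
      · exact Or.inl rfl
      · rw [gj] at h1; exact absurd h1 (by decide)
      · exact Or.inr rfl
    · intro n hn hb h1
      rcases (hbig n hn).1 hb with rfl | rfl | rfl | rfl
      · exact Or.inr rfl
      · rw [gi] at h1; exact absurd h1 (by decide)
      · exact Or.inl rfl
      · rw [gk] at h1; exact absurd h1 (by decide)

/-- An alternating face outside a maximal family is not crossed by the cut. -/
theorem alt_contra [Fintype V] (R : Rotation G)
    (hcub : ∀ v, (G.neighborSet v).ncard = 3) (h3 : ThreeConnected G)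
    (hE : Fintype.card V + Fintype.card R.Face = Fintype.card G.edgeSet + 2)
    {c : R.Face → Fin 3} (hc : Proper R c) (red D : Set R.Face)
    (hmax : Maximal (fun D => D ⊆ alts R c ∧ (forestG R c red D).IsAcyclic) D)
    (x : V → ZMod 2)
    (hx : ∀ d : G.Dart, x d.fst ≠ x d.snd → BigAdj R (side R d) (side R d.symm) ∧
      side R d ∉ inS R c red D ∧ side R d.symm ∉ inS R c red D)
    {u : R.Face} (hu : u ∈ alts R c) (huD : u ∉ D) (d0 : G.Dart) (hd0 : x d0.fst ≠ x d0.snd)
    (hside : side R d0 = u) : False := by
  classical
  obtain ⟨e, p, m, q, m', he, hpm, hmq, hq, hm', F1, F2, bp, bq, cp, cq⟩ :=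
    alternating_positions R hc hu.1 hu.2.2.2
  -- the cut crosses `u` at the positions `m` and `m'`
  have hpos : ∀ d : G.Dart, side R d = u → x d.fst ≠ x d.snd →
      d = (R.facePerm ^ m) e ∨ d = (R.facePerm ^ m') e := by
    intro d hd hxd
    obtain ⟨n, hn, rfl⟩ := (mem_face_iff R (d := e) (e := d)).1 (hd.trans he.symm)
    rw [he] at hn
    have h := hx _ hxd
    have hcol : c (across R e n) = 2 := by
      have h1 : c (across R e n) ≠ 0 := by
        intro h'
        have := hc ((R.facePerm ^ n) e)
        rw [side_pow, he, hu.1] at this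
        exact this h'.symm
      have h2 : c (across R e n) ≠ 1 := fun h' => h.2.2 (Or.inl h')
      revert h1 h2
      generalize c (across R e n) = y
      revert y; decide
    rcases F2 n hn h.1.2.2.1 hcol with rfl | rfl
    · exact Or.inl rfl
    · exact Or.inr rfl
  obtain ⟨d1, hs1, hx1, hne1, -⟩ := two_changes R hcub h3 hE x d0 hd0
  have hxm : x ((R.facePerm ^ m) e).fst ≠ x ((R.facePerm ^ m) e).snd := by
    rcases hpos d0 hside hd0 with h | h
    · rw [← h]; exact hd0
    · rcases hpos d1 (hs1.trans hside) hx1 with h' | h'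
      · rw [← h']; exact hx1
      · exact absurd (h'.trans h.symm) hne1
  -- no other change between `p` and `q`
  have hno : ∀ n < size R u, n ≠ m → n ≠ m' →
      x ((R.facePerm ^ n) e).fst = x ((R.facePerm ^ n) e).snd := by
    intro n hn h1 h2
    by_contra hcon
    have h := hx _ hcon
    have hcol : c (across R e n) = 2 := by
      have h1 : c (across R e n) ≠ 0 := by
        intro h'
        have := hc ((R.facePerm ^ n) e)
        rw [side_pow, he, hu.1] at this
        exact this h'.symm
      have h2 : c (across R e n) ≠ 1 := fun h' => h.2.2 (Or.inl h')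
      revert h1 h2
      generalize c (across R e n) = y
      revert y; decide
    rcases F2 n hn h.1.2.2.1 hcol with h' | h'
    · exact h1 h'
    · exact h2 h'
  have k1 : x ((R.facePerm ^ p) e).fst = x ((R.facePerm ^ m) e).fst :=
    const_between R x e hpm.le (fun n h1 h2 => hno n (by omega) (by omega) (by omega))
  have k2 : x ((R.facePerm ^ (m + 1)) e).fst = x ((R.facePerm ^ q) e).fst :=
    const_between R x e hmq (fun n h1 h2 => hno n (by omega) (by omega) (by omega))
  rw [pow_fst_succ] at k2
  have k3 := hno p (by omega) (by omega) (by omega)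
  have k4 := hno q hq (by omega) (by omega)
  -- the function is constant on each face of `S`
  have hconst : ∀ a b : G.Dart, side R a = side R b → side R a ∈ inS R c red D →
      x a.fst = x b.fst := by
    intro a b hab ha
    obtain ⟨n, -, rfl⟩ := (mem_face_iff R (d := a) (e := b)).1 hab.symm
    have := const_between R x a (Nat.zero_le n) (fun k _ _ => by
      by_contra hcon
      have h := (hx _ hcon).2.1
      rw [side_pow] at h
      exact h ha)
    exact this
  have hS1 : ∀ g, c g = 1 → g ∈ inS R c red D := fun g hg => Or.inl hg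
  have hreachconst : ∀ f g, (forestG R c red D).Reachable f g → f ∈ inS R c red D →
      ∀ a b : G.Dart, side R a = f → side R b = g → x a.fst = x b.fst := by
    intro f g hfg hf
    rw [reachable_iff_reflTransGen] at hfg
    induction hfg with
    | refl => exact fun a b ha hb => hconst a b (ha.trans hb.symm) (by rw [ha]; exact hf)
    | @tail g h _ hgh ih =>
      intro a b ha hb
      have hgS := forestG_mem hgh
      have hhS := forestG_mem hgh.symm
      obtain ⟨w, hw1, hw2⟩ : ∃ w : G.Dart, side R w = g ∧ side R w.symm = h := by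
        unfold forestG at hgh
        rw [fromRel_adj] at hgh
        rcases hgh.2 with ⟨-, h2, -⟩ | ⟨-, h2, -⟩
        · obtain ⟨_, _, _, w, h3, h4⟩ := h2
          exact ⟨w, h3, h4⟩
        · obtain ⟨_, _, _, w, h3, h4⟩ := h2.symm
          exact ⟨w, h3, h4⟩
      have e1 := ih a w ha hw1
      have e2 : x w.fst = x w.snd := by
        by_contra hcon
        exact (hx _ hcon).2.1 (by rw [hw1]; exact hgS)
      have e3 : x w.symm.fst = x b.fst :=
        hconst w.symm b (hw2.trans hb.symm) (by rw [hw2]; exact hhS)
      rw [e1, e2]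
      exact e3
  by_cases hreach : (forestG R c red D).Reachable (across R e p) (across R e q)
  · have h := hreachconst _ _ hreach (hS1 _ cp) ((R.facePerm ^ p) e).symm
      ((R.facePerm ^ q) e).symm rfl rfl
    have h' : x ((R.facePerm ^ p) e).snd = x ((R.facePerm ^ q) e).snd := h
    apply hxm
    rw [← k1, k3, h', ← k4, ← k2]
  · -- enlarge `D`
    have hu0 : ∀ g, ¬ (forestG R c red D).Adj u g := by
      intro g hg
      unfold forestG at hg
      rw [fromRel_adj] at hg
      rcases hg.2 with ⟨⟨-, h1⟩, -, -⟩ | ⟨-, -, h1⟩
      · rcases h1 with h1 | h1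
        · exact h1.1 (Or.inr hu.2.2.2)
        · exact huD h1
      · rw [hu.1] at h1; exact absurd h1 (by decide)
    have hup : u ≠ across R e p := by
      intro h; rw [← h, hu.1] at cp; exact absurd cp (by decide)
    have huq : u ≠ across R e q := by
      intro h; rw [← h, hu.1] at cq; exact absurd cq (by decide)
    have hac := acyclic_add (forestG R c red D) hmax.prop.2 hu0 hup huq hreach
    have hmem : insert u D ⊆ alts R c ∧ (forestG R c red (insert u D)).IsAcyclic := by
      refine ⟨Set.insert_subset hu hmax.prop.1, hac.anti ?_⟩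
      have hstep : ∀ f g, Hot R c red (insert u D) f → BigAdj R f g → c g = 1 →
          ((forestG R c red D ⊔ edge u (across R e p)) ⊔ edge u (across R e q)).Adj f g := by
        intro f g hf hfg hg
        by_cases hfu : f = u
        · subst hfu
          obtain ⟨_, _, hgbig, w, hw1, rfl⟩ := hfg
          obtain ⟨n, hn, rfl⟩ := (mem_face_iff R (d := e) (e := w)).1 (hw1.trans he.symm)
          rw [he] at hn
          rcases F1 n hn hgbig hg with rfl | rfl
          · left; right
            rw [edge_adj]
            exact ⟨Or.inl ⟨rfl, rfl⟩, hup⟩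
          · right
            rw [edge_adj]
            exact ⟨Or.inl ⟨rfl, rfl⟩, huq⟩
        · left; left
          unfold forestG
          rw [fromRel_adj]
          refine ⟨hfg.1, Or.inl ⟨⟨hf.1, ?_⟩, hfg, hg⟩⟩
          rcases hf.2 with h | h
          · exact Or.inl h
          · exact Or.inr (Set.mem_of_mem_insert_of_ne h hfu)
      intro f g hfg
      unfold forestG at hfg
      rw [fromRel_adj] at hfg
      rcases hfg.2 with ⟨h1, h2, h3⟩ | ⟨h1, h2, h3⟩
      · exact hstep f g h1 h2 h3
      · exact (hstep g f h1 h2 h3).symm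
    have hle := hmax.le_of_ge hmem (Set.subset_insert u D)
    exact huD (hle (Set.mem_insert u D))

end Vale.Agent.P039.Sw
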