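import Vale.Agent.P039.Sw.Main
import Vale.Agent.P039.Sp.GraphB

/-! Permuting the colours, counting complex faces, existence of colourings. -/

namespace Vale.Agent.P039.Sw

open Vale.Agent.P039
open SimpleGraph

variable {V : Type*} {G : SimpleGraph V}

section Perm

variable (R : Rotation G) (c : R.Face → Fin 3) (σ : Equiv.Perm (Fin 3))

theorem bigNbrs_perm (i : Fin 3) (f : R.Face) :
    bigNbrs R (fun g => σ (c g)) (σ i) f = bigNbrs R c i f := by
  ext g
  unfold bigNbrs
  simp only [Set.mem_ofPred_eq, EmbeddingLike.apply_eq_iff_eq]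

theorem alternating_perm (f : R.Face) :
    Alternating R (fun g => σ (c g)) f ↔ Alternating R c f := by
  unfold Alternating
  simp only [ne_eq, EmbeddingLike.apply_eq_iff_eq]

theorem simple_perm (f : R.Face) :
    Simple R (fun g => σ (c g)) f ↔ Simple R c f := by
  unfold Simple
  rw [alternating_perm]
  apply or_congr_left
  constructor
  · rintro ⟨i, hi, h⟩
    refine ⟨σ.symm i, ?_, ?_⟩
    · intro h'
      apply hi
      change i = σ (c f)
      rw [← h', Equiv.apply_symm_apply]
    · rw [← bigNbrs_perm R c σ, Equiv.apply_symm_apply]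
      exact h
  · rintro ⟨i, hi, h⟩
    refine ⟨σ i, ?_, ?_⟩
    · intro h'
      exact hi (σ.injective h')
    · rw [bigNbrs_perm R c σ]
      exact h

theorem proper_perm (hc : Proper R c) : Proper R (fun g => σ (c g)) := by
  intro d h
  exact hc d (σ.injective h)

end Perm

/-- At most eight complex faces. -/
theorem ham_of_eight [Fintype V] [DecidableEq V] (R : Rotation G)
    (hcub : ∀ v, (G.neighborSet v).ncard = 3) (h3 : ThreeConnected G)
    (hE : Fintype.card V + Fintype.card R.Face = Fintype.card G.edgeSet + 2)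
    {c : R.Face → Fin 3} (hc : Proper R c)
    (h8 : {f | size R f ≠ 4 ∧ ¬ Simple R c f}.ncard ≤ 8) : G.IsHamiltonian := by
  classical
  set A := {f | size R f ≠ 4 ∧ ¬ Simple R c f} with hA
  set B : Fin 3 → Set R.Face := fun i => {f | c f = i ∧ size R f ≠ 4 ∧ ¬ Simple R c f} with hB
  have hcov : A = B 0 ∪ (B 1 ∪ B 2) := by
    ext f
    constructor
    · intro h
      have : c f = 0 ∨ c f = 1 ∨ c f = 2 := by
        generalize c f = y
        revert y; decide
      rcases this with h' | h' | h'
      · exact Or.inl ⟨h', h⟩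
      · exact Or.inr (Or.inl ⟨h', h⟩)
      · exact Or.inr (Or.inr ⟨h', h⟩)
    · rintro (h | h | h) <;> exact h.2
  have hdis : ∀ i j, i ≠ j → Disjoint (B i) (B j) := by
    intro i j hij
    rw [Set.disjoint_left]
    intro f h1 h2
    exact hij (h1.1.symm.trans h2.1)
  have hsum : A.ncard = (B 0).ncard + ((B 1).ncard + (B 2).ncard) := by
    rw [hcov, Set.ncard_union_eq, Set.ncard_union_eq (hdis 1 2 (by decide))]
    rw [Set.disjoint_union_right]
    exact ⟨hdis 0 1 (by decide), hdis 0 2 (by decide)⟩
  obtain ⟨i, hi⟩ : ∃ i, (B i).ncard ≤ 2 := by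
    by_contra hcon
    push Not at hcon
    have h0 := hcon 0
    have h1 := hcon 1
    have h2 := hcon 2
    omega
  refine ham_of_two R hcub h3 hE (proper_perm R c (Equiv.swap i 0) hc) ?_
  have : {f | (Equiv.swap i 0) (c f) = 0 ∧ size R f ≠ 4 ∧
      ¬ Simple R (fun g => (Equiv.swap i 0) (c g)) f} = B i := by
    ext f
    simp only [Set.mem_ofPred_eq, hB, simple_perm]
    have : (Equiv.swap i 0) (c f) = 0 ↔ c f = i := by
      rw [Equiv.swap_apply_eq_iff, Equiv.swap_apply_right]
    rw [this]
  rw [this]
  exact hi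

/-- A potential exists. -/
theorem exists_pot' [Fintype V] (G : SimpleGraph V)
    (hcub : ∀ v, (G.neighborSet v).ncard = 3) (R : Rotation G)
    (hE : Fintype.card V + Fintype.card R.Face = Fintype.card G.edgeSet + 2)
    (hconn : G.Connected) (b : V → Bool) (hb : ∀ u v, G.Adj u v → b u ≠ b v) :
    Nonempty (Sk.Pot G R b) := by
  have hcard : ∀ v, ({d : G.Dart | d.fst = v}).ncard = 3 := fun v =>
    (ncard_out G v).trans (hcub v)
  have hbd : Fintype.card (Sk.BDart G b) = Fintype.card G.edgeSet := by
    apply Fintype.card_of_bijective (f := fun d : Sk.BDart G b => edgeOf d.1)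
    constructor
    · rintro ⟨d, hd⟩ ⟨e, he⟩ h
      rcases (edgeOf_eq_iff d e).1 h with h' | h'
      · exact Subtype.ext h'
      · exfalso
        subst h'
        have hd' : b e.snd = true := hd
        exact hb _ _ e.adj (he.trans hd'.symm)
    · intro e
      obtain ⟨d, rfl⟩ := edgeOf_surj e
      rcases Bool.eq_false_or_eq_true (b d.fst) with h | h
      · exact ⟨⟨d, h⟩, rfl⟩
      · have h' : b d.symm.fst = true := by
          have := hb _ _ d.adj
          rcases Bool.eq_false_or_eq_true (b d.snd) with h' | h'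
          · exact h'
          · exact absurd (h.trans h'.symm) this
        exact ⟨⟨d.symm, h'⟩, edgeOf_symm d⟩
  obtain ⟨κ, hκ⟩ := Sk.exists_potential R b hconn.preconnected hconn.nonempty
    (by rw [hbd]; exact hE) hb hcard
  exact ⟨⟨κ, hb, hcard, hκ⟩⟩

theorem exists_bool_colouring (h : G.Colorable 2) :
    ∃ b : V → Bool, ∀ u v, G.Adj u v → b u ≠ b v := by
  obtain ⟨C⟩ := h
  refine ⟨fun v => decide (C v = 0), fun u v huv h => ?_⟩
  have hne := C.valid huv
  have h' : (C u = 0) ↔ (C v = 0) := by simpa using h
  revert h' hne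
  generalize C u = p
  generalize C v = q
  revert p q; decide

theorem spherical_card [Fintype V] {R : Rotation G} (hR : R.Spherical) :
    Fintype.card V + Fintype.card R.Face = Fintype.card G.edgeSet + 2 := by
  have h := hR
  unfold Rotation.Spherical at h
  rw [Nat.card_eq_fintype_card, Nat.card_eq_fintype_card, Nat.card_eq_fintype_card] at h
  exact h

/-- The faces have a proper colouring with three colours. -/
theorem exists_proper [Fintype V] (hG : IsBarnette G) (R : Rotation G) (hR : R.Spherical) :
    ∃ c, Proper R c := by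
  obtain ⟨b, hb⟩ := exists_bool_colouring hG.bipartite
  obtain ⟨P⟩ := exists_pot' G hG.cubic R (spherical_card hR) (connected_three hG.connected) b hb
  refine ⟨P.κ, fun d h => ?_⟩
  rcases Bool.eq_false_or_eq_true (b d.fst) with h' | h'
  · have := P.step d h'
    have h2 : P.κ (R.faceOf d) = P.κ (R.faceOf d.symm) := h
    rw [this] at h2
    revert h2
    generalize P.κ (R.faceOf d) = y
    revert y; decide
  · have := P.step d.symm (P.flip' h')
    rw [SimpleGraph.Dart.symm_symm] at this
    have h2 : P.κ (R.faceOf d) = P.κ (R.faceOf d.symm) := h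
    rw [this] at h2
    revert h2
    generalize P.κ (R.faceOf d.symm) = y
    revert y; decide

end Vale.Agent.P039.Sw
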