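import Vale.Agent.P039.Sw.Count

/-! Vertices on one or two faces of size four. -/

namespace Vale.Agent.P039.Sw

open Vale.Agent.P039
open SimpleGraph

variable {V : Type*} {G : SimpleGraph V}

theorem fin3a : ∀ x y z w : Fin 3, (y ≠ z ∧ x ≠ y ∧ z ≠ w ∧ y ≠ w ∧ x ≠ w) → x = z := by
  decide

theorem fin3b : ∀ x y z w : Fin 3, (y ≠ w ∧ z ≠ w ∧ x ≠ w ∧ y ≠ z ∧ x ≠ y ∧ x ≠ z) → False := by
  decide

theorem OnSquare.symm {u v : V} (h : OnSquare G u v) : OnSquare G v u := by
  obtain ⟨x, y, a, b, c, d, e⟩ := h
  exact ⟨y, x, c.symm, b.symm, a.symm, e, d⟩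

section

variable [Fintype V] {R : Rotation G} {b : V → Bool} (P : Sk.Pot G R b)
  (hcub : ∀ v, (G.neighborSet v).ncard = 3)

include P

omit [Fintype V] in
theorem γ_ne_side (d : G.Dart) : P.γ d ≠ P.κ (side R d) := by
  rcases Bool.eq_false_or_eq_true (b d.fst) with h | h
  · have := P.κ_black h
    change P.κ (side R d) = _ at this
    rw [this]
    generalize P.γ d = y
    revert y; decide
  · have := P.κ_white h
    change P.κ (side R d) = _ at this
    rw [this]
    generalize P.γ d = y
    revert y; decide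

omit [Fintype V] in
theorem proper_κ : Proper R P.κ := by
  intro d h
  rcases Bool.eq_false_or_eq_true (b d.fst) with h' | h'
  · have := P.step d h'
    have h2 : P.κ (R.faceOf d) = P.κ (R.faceOf d.symm) := h
    rw [this] at h2
    revert h2
    generalize P.κ (R.faceOf d) = y
    revert y; decide
  · have := P.step d.symm (P.flip' h')
    rw [SimpleGraph.Dart.symm_symm] at this
    have h2 : P.κ (R.faceOf d) = P.κ (R.faceOf d.symm) := h
    rw [this] at h2
    revert h2
    generalize P.κ (R.faceOf d.symm) = y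
    revert y; decide

include hcub

theorem γ_face (d : G.Dart) : P.γ (R.facePerm d) ≠ P.γ d := by
  intro h
  rw [← P.γ_symm d] at h
  have h1 : R.facePerm d = d.symm := P.dart_inj (R.fst_facePerm d) h
  exact rot_ne R hcub _ h1

theorem γ_face2 (d : G.Dart) : P.γ (R.facePerm (R.facePerm d)) = P.γ d := by
  have h1 := γ_face P hcub d
  have h2 := γ_face P hcub (R.facePerm d)
  have e0 := γ_ne_side P d
  have e1 := γ_ne_side P (R.facePerm d)
  have e2 := γ_ne_side P (R.facePerm (R.facePerm d))
  have s1 : side R (R.facePerm d) = side R d := R.faceOf_facePerm d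
  have s2 : side R (R.facePerm (R.facePerm d)) = side R d := (R.faceOf_facePerm _).trans s1
  rw [s1] at e1
  rw [s2] at e2
  exact fin3a _ _ _ _ ⟨h1, h2, e0, e1, e2⟩

omit P in
/-- Two consecutive edges of a quadrilateral that both lead to quadrilaterals. -/
theorem no_consecutive (hno : ∀ v, ∃ f, OnFace R v f ∧ size R f ≠ 4) (d : G.Dart)
    (h1 : size R (side R d) = 4) (h2 : size R (side R d.symm) = 4)
    (h4 : size R (side R (R.facePerm d).symm) = 4) : False := by
  obtain ⟨f, ⟨e, he, rfl⟩, hf⟩ := hno d.snd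
  have s1 : side R (R.facePerm d) = side R d := R.faceOf_facePerm d
  rcases out_cases R hcub (d := d.symm) (e := e) he with rfl | rfl | rfl
  · exact hf h2
  · have : side R (R.rot d.symm) = side R d := s1
    rw [this] at hf
    exact hf h1
  · have : side R (R.rot (R.rot d.symm)) = side R (R.facePerm d).symm := side_rot R _
    rw [this] at hf
    exact hf h4

theorem γ_eq_of_quads (hno : ∀ v, ∃ f, OnFace R v f ∧ size R f ≠ 4) {d e : G.Dart}
    (h1 : size R (side R d) = 4) (hde : side R e = side R d)
    (h2 : size R (side R d.symm) = 4) (h4 : size R (side R e.symm) = 4) :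
    P.γ e = P.γ d := by
  obtain ⟨n, hn, rfl⟩ := (mem_face_iff R (d := d) (e := e)).1 hde
  rw [h1] at hn
  interval_cases n
  · rfl
  · exact absurd (no_consecutive hcub hno d h1 h2 h4) id
  · exact γ_face2 P hcub d
  · exfalso
    have h5 : R.facePerm ((R.facePerm ^ 3) d) = d := by
      have hs : Function.minimalPeriod R.facePerm d = 4 := by
        rw [← cycle_ncard, ← h1]
        unfold size
        congr 1
        ext e
        constructor
        · intro h
          exact (Quotient.sound h).symm
        · intro h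
          exact Quotient.exact (Eq.symm h)
      have h := Function.iterate_minimalPeriod (f := R.facePerm) (x := d)
      rw [hs] at h
      exact h
    refine no_consecutive hcub hno ((R.facePerm ^ 3) d) (by rw [side_pow]; exact h1) h4 ?_
    rw [h5]
    exact h2

open Classical in
/-- the colour of the rungs of a quadrilateral -/
noncomputable def rung (f : R.Face) : Fin 3 :=
  if h : ∃ d : G.Dart, side R d = f ∧ size R (side R d.symm) = 4 then P.γ h.choose
  else P.κ f + 1

theorem rung_eq (hno : ∀ v, ∃ f, OnFace R v f ∧ size R f ≠ 4) {d : G.Dart}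
    (h1 : size R (side R d) = 4) (h2 : size R (side R d.symm) = 4) :
    rung P (side R d) = P.γ d := by
  have h : ∃ e : G.Dart, side R e = side R d ∧ size R (side R e.symm) = 4 := ⟨d, rfl, h2⟩
  unfold rung
  rw [dif_pos h]
  exact γ_eq_of_quads P hcub hno h1 h.choose_spec.1 h2 h.choose_spec.2

omit hcub in
theorem rung_ne (f : R.Face) : rung P f ≠ P.κ f := by
  unfold rung
  split_ifs with h
  · have := γ_ne_side P h.choose
    rw [h.choose_spec.1] at this
    exact this
  · generalize P.κ f = y
    revert y; decide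

/-- A dart at a vertex of `f` whose colour is not that of `f` has `f` on one side. -/
theorem side_of_colour {v : V} {f : R.Face} (hf : OnFace R v f) {d : G.Dart} (hd : d.fst = v)
    (hγ : P.γ d ≠ P.κ f) : side R d = f ∨ side R d.symm = f := by
  obtain ⟨e, he, rfl⟩ := hf
  rcases out_cases R hcub (d := e) (e := d) (hd.trans he.symm) with rfl | rfl | rfl
  · exact Or.inl rfl
  · exfalso
    have e0 := γ_ne_side P e
    have e2 := γ_ne_side P (R.rot (R.rot e)).symm
    have s2 : side R (R.rot (R.rot e)).symm = side R e := by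
      rw [← side_rot, rot3 R hcub]
    rw [s2, P.γ_symm] at e2
    have n1 : P.γ (R.rot e) ≠ P.γ e := fun h =>
      rot_ne R hcub e (P.dart_inj (R.fst_rot e) h)
    have n2 : P.γ (R.rot (R.rot e)) ≠ P.γ (R.rot e) := fun h =>
      rot_ne R hcub (R.rot e) (P.dart_inj (R.fst_rot _) h)
    have n3 : P.γ (R.rot (R.rot e)) ≠ P.γ e := by
      intro h
      have h5 := P.dart_inj ((R.fst_rot _).trans (R.fst_rot e)) h
      have h6 := rot3 R hcub e
      rw [h5] at h6
      exact rot_ne R hcub e h6
    exact fin3b _ _ _ _ ⟨hγ, e0, e2, n1, n2, n3⟩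
  · right
    rw [← side_rot, rot3 R hcub]

omit P in
/-- Two faces at a vertex share an edge at the vertex. -/
theorem share_edge {v : V} {f g : R.Face} (hf : OnFace R v f) (hg : OnFace R v g)
    (hne : f ≠ g) : ∃ d : G.Dart, d.fst = v ∧
      ((side R d = f ∧ side R d.symm = g) ∨ (side R d = g ∧ side R d.symm = f)) := by
  obtain ⟨e, he, rfl⟩ := hf
  obtain ⟨e', he', rfl⟩ := hg
  rcases out_cases R hcub (d := e) (e := e') (he'.trans he.symm) with rfl | rfl | rfl
  · exact absurd rfl hne
  · exact ⟨e, he, Or.inl ⟨rfl, (side_rot R e).symm⟩⟩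
  · refine ⟨R.rot (R.rot e), he', Or.inr ⟨rfl, ?_⟩⟩
    rw [← side_rot, rot3 R hcub]

/-- the perfect matching of rungs -/
def rungs (N : SimpleGraph V) : SimpleGraph V where
  Adj u v := N.Adj u v ∨ ∃ d : G.Dart, d.fst = u ∧ d.snd = v ∧ ∃ f, size R f = 4 ∧
    (side R d = f ∨ side R d.symm = f) ∧ P.γ d = rung P f
  symm := ⟨by
    rintro u v (h | ⟨d, h1, h2, f, h3, h4, h5⟩)
    · exact Or.inl h.symm
    · refine Or.inr ⟨d.symm, h2, h1, f, h3, ?_, ?_⟩
      · rw [SimpleGraph.Dart.symm_symm]; exact h4.symm
      · rw [P.γ_symm]; exact h5⟩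
  loopless := ⟨by
    rintro v (h | ⟨d, h1, h2, -⟩)
    · exact N.loopless.irrefl v h
    · exact d.fst_ne_snd (h1.trans h2.symm)⟩

omit P hcub [Fintype V] in
theorem onFace_symm (d : G.Dart) : OnFace R d.fst (side R d.symm) :=
  ⟨R.rot d, R.fst_rot d, side_rot R d⟩

theorem ham_of_ladders [DecidableEq V]
    (hno : ∀ v, ∃ f, OnFace R v f ∧ size R f ≠ 4) (N : SimpleGraph V) (hN : N ≤ G)
    (hN1 : ∀ v, (∀ f, OnFace R v f → size R f ≠ 4) → ∃! w, N.Adj v w)
    (hN2 : ∀ v w, N.Adj v w → ∀ f, OnFace R v f → size R f ≠ 4)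
    (hconn : (G \ N).Connected) : G.IsHamiltonian := by
  classical
  refine ham_of_offSquares hcub (rungs P N) ⟨?_, fun v => ?_⟩ ?_
  · rintro u v (h | ⟨d, rfl, rfl, -⟩)
    · exact hN h
    · exact d.adj
  · by_cases hv : ∀ f, OnFace R v f → size R f ≠ 4
    · obtain ⟨w, hw, hu⟩ := hN1 v hv
      refine ⟨w, Or.inl hw, ?_⟩
      rintro y (hy | ⟨d, h1, h2, f, h3, h4, -⟩)
      · exact hu y hy
      · exfalso
        apply hv f _ h3
        rcases h4 with rfl | rfl
        · exact ⟨d, h1, rfl⟩
        · rw [← h1]; exact onFace_symm d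
    · push Not at hv
      obtain ⟨f, hf, hf4⟩ := hv
      have hd := P.δ_fst v (rung P f)
      have hγ := P.γ_δ v (rung P f)
      set d := P.δ v (rung P f) with hdef
      have hs := side_of_colour P hcub hf hd (by rw [hγ]; exact rung_ne P f)
      refine ⟨d.snd, Or.inr ⟨d, hd, rfl, f, hf4, hs, hγ⟩, ?_⟩
      rintro y (hy | ⟨d', h1, rfl, f', h3, h4, h5⟩)
      · exact absurd hf4 (hN2 v y hy f hf)
      · have hf' : OnFace R v f' := by
          rcases h4 with rfl | rfl
          · exact ⟨d', h1, rfl⟩
          · rw [← h1]; exact onFace_symm d'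
        have hrr : rung P f' = rung P f := by
          by_cases hff : f = f'
          · rw [hff]
          · obtain ⟨e, he, h | h⟩ := share_edge hcub hf hf' hff
            · obtain ⟨rfl, rfl⟩ := h
              rw [rung_eq P hcub hno hf4 h3]
              have := rung_eq P hcub hno (d := e.symm) h3
                (by rw [SimpleGraph.Dart.symm_symm]; exact hf4)
              rw [this, P.γ_symm]
            · obtain ⟨rfl, rfl⟩ := h
              rw [rung_eq P hcub hno h3 hf4]
              have := rung_eq P hcub hno (d := e.symm) hf4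
                (by rw [SimpleGraph.Dart.symm_symm]; exact h3)
              rw [this, P.γ_symm]
        have : d' = d := P.dart_inj (h1.trans hd.symm) (by rw [h5, hrr, hγ])
        rw [this]
  · refine hconn.mono ?_
    intro u v huv
    rw [sdiff_adj] at huv
    refine ⟨huv.1, ?_⟩
    rintro (h | ⟨d, rfl, rfl, f, h3, h4, -⟩)
    · exact absurd h huv.2
    · rcases h4 with rfl | rfl
      · exact onSquare_of_size R hcub h3
      · exact (onSquare_of_size R hcub (d := d.symm) h3).symm

end

end Vale.Agent.P039.Sw
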