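import Vale.Agent.P039.Sw.Base
import Mathlib.Combinatorics.SimpleGraph.Hamiltonian
import Mathlib.Combinatorics.SimpleGraph.Matching
import Mathlib.Combinatorics.SimpleGraph.Acyclic

namespace Vale.Agent.P039.Sw

open SimpleGraph

variable {V : Type*}

/-- The graph obtained by removing the perfect matching `m`. -/
def two (G : SimpleGraph V) (m : V → V) (hm : ∀ v, m (m v) = v) : SimpleGraph V where
  Adj u v := G.Adj u v ∧ m u ≠ v
  symm := ⟨by
    rintro u v ⟨h1, h2⟩
    exact ⟨h1.symm, fun h => h2 (by rw [← h, hm])⟩⟩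
  loopless := ⟨fun v h => G.loopless.irrefl v h.1⟩

/-- `G` without the matching edges off the 4-cycles, in terms of an involution. -/
def rest (G : SimpleGraph V) (m : V → V) (hm : ∀ v, m (m v) = v) : SimpleGraph V where
  Adj u v := G.Adj u v ∧ (m u = v → OnSquare G u v)
  symm := ⟨by
    rintro u v ⟨h1, h2⟩
    refine ⟨h1.symm, fun h => ?_⟩
    obtain ⟨x, y, a, b, c, d, e⟩ := h2 (by rw [← h, hm])
    exact ⟨y, x, c.symm, b.symm, a.symm, e, d⟩⟩
  loopless := ⟨fun v h => G.loopless.irrefl v h.1⟩

variable {G : SimpleGraph V}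

theorem two_ncard [Finite V] (hc : ∀ v, (G.neighborSet v).ncard = 3) (m : V → V)
    (hm : ∀ v, m (m v) = v) (hadj : ∀ v, G.Adj v (m v)) (v : V) :
    ((two G m hm).neighborSet v).ncard = 2 := by
  have h : (two G m hm).neighborSet v = G.neighborSet v \ {m v} := by
    ext w
    simp only [mem_neighborSet, Set.mem_sdiff, Set.mem_singleton_iff]
    exact ⟨fun h => ⟨h.1, fun e => h.2 e.symm⟩, fun h => ⟨h.1, fun e => h.2 e.symm⟩⟩
  rw [h, Set.ncard_sdiff_singleton_of_mem (show m v ∈ G.neighborSet v from hadj v), hc v]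

theorem two_isCycles [Finite V] (hc : ∀ v, (G.neighborSet v).ncard = 3) (m : V → V)
    (hm : ∀ v, m (m v) = v) (hadj : ∀ v, G.Adj v (m v)) : (two G m hm).IsCycles :=
  fun v _ => two_ncard hc m hm hadj v

theorem ham_of_connected_two [Fintype V] [DecidableEq V] (hc : ∀ v, (G.neighborSet v).ncard = 3)
    (m : V → V) (hm : ∀ v, m (m v) = v) (hadj : ∀ v, G.Adj v (m v))
    (hconn : (two G m hm).Connected) : G.IsHamiltonian := by
  intro _
  have hcyc : (two G m hm).IsCycles := two_isCycles hc m hm hadj
  obtain ⟨v⟩ := hconn.nonempty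
  have hn : ((two G m hm).neighborSet v).Nonempty := by
    apply Set.nonempty_of_ncard_ne_zero
    rw [two_ncard hc m hm hadj v]; decide
  obtain ⟨p, hp, hsupp⟩ := hcyc.exists_cycle_toSubgraph_verts_eq_connectedComponentSupp
    (c := (two G m hm).connectedComponentMk v) (v := v) (by simp) hn
  have hle : two G m hm ≤ G := fun _ _ h => h.1
  refine ⟨v, p.map (.ofLE hle), ?_⟩
  have hpH : p.IsHamiltonianCycle := by
    rw [Walk.isHamiltonianCycle_iff_isCycle_and_support_count_tail_eq_one]
    refine ⟨hp, fun a => ?_⟩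
    apply List.count_eq_one_of_mem hp.support_nodup
    have ha : a ∈ p.toSubgraph.verts := by
      rw [hsupp]
      rw [ConnectedComponent.mem_supp_iff]
      exact ConnectedComponent.sound (hconn.preconnected a v)
    rw [Walk.mem_verts_toSubgraph] at ha
    by_cases hav : a = v
    · rw [hav]
      exact p.end_mem_tail_support hp.not_nil
    · have := (Walk.mem_support_iff p).1 ha
      rcases this with h | h
      · exact absurd h hav
      · exact h
  exact hpH.map Function.bijective_id

/-- In a graph of cycles an edge can be bypassed, and the bypass stays in a graph `K` that contains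
all other edges of the component. -/
theorem bypass [Finite V] {F K : SimpleGraph V} (hF : F.IsCycles) {a y : V} (hay : F.Adj a y)
    (hK : ∀ u v, F.Reachable a u → F.Adj u v → s(u, v) ≠ s(a, y) → K.Adj u v) :
    K.Reachable a y := by
  have h := hF.reachable_deleteEdges hay
  rw [reachable_iff_reflTransGen] at h
  have key : ∀ w, Relation.ReflTransGen (F.deleteEdges {s(a, y)}).Adj a w →
      F.Reachable a w ∧ K.Reachable a w := by
    intro w hw
    induction hw with
    | refl => exact ⟨Reachable.refl _, Reachable.refl _⟩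
    | tail _ hbc ih =>
      rw [deleteEdges_adj] at hbc
      refine ⟨ih.1.trans hbc.1.reachable, ih.2.trans (Adj.reachable (hK _ _ ih.1 hbc.1 ?_))⟩
      simpa using hbc.2
  exact (key y h).2

theorem ham_of_rest [Fintype V] [DecidableEq V] (hc : ∀ v, (G.neighborSet v).ncard = 3) (n : ℕ) :
    ∀ (m : V → V) (hm : ∀ v, m (m v) = v), (∀ v, G.Adj v (m v)) →
      Nat.card (two G m hm).ConnectedComponent = n → (rest G m hm).Connected →
      G.IsHamiltonian := by
  induction n using Nat.strong_induction_on with
  | _ n ih =>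
  intro m hm hadj hn hconn
  by_cases hpre : (two G m hm).Preconnected
  · exact ham_of_connected_two hc m hm hadj
      (@Connected.mk _ _ hpre hconn.nonempty)
  have hex : ∃ a b, (rest G m hm).Adj a b ∧ ¬ (two G m hm).Reachable a b := by
    by_contra hcon
    push Not at hcon
    apply hpre
    intro u v
    have h := hconn.preconnected u v
    rw [reachable_iff_reflTransGen] at h
    induction h with
    | refl => exact Reachable.refl _
    | tail _ hbc ih => exact ih.trans (hcon _ _ hbc)
  obtain ⟨a, b, hab, hnr⟩ := hex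
  have hGab : G.Adj a b := hab.1
  have hmab : m a = b := by
    by_contra h
    exact hnr (Adj.reachable (show (two G m hm).Adj a b from ⟨hGab, h⟩))
  obtain ⟨x, y, hbx, hxy, hya, hax, hby⟩ := hab.2 hmab
  have hmba : m b = a := by rw [← hmab, hm]
  have hFay : (two G m hm).Adj a y := ⟨hya.symm, by rw [hmab]; exact hby⟩
  have hFbx : (two G m hm).Adj b x := ⟨hbx, by rw [hmba]; exact hax⟩
  have hmyx : m y = x := by
    by_contra h
    exact hnr ((hFay.reachable.trans
      (Adj.reachable (show (two G m hm).Adj y x from ⟨hxy.symm, h⟩))).trans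
        hFbx.reachable.symm)
  have hmxy : m x = y := by rw [← hmyx, hm]
  have nab : a ≠ b := hGab.ne
  have nay : a ≠ y := hya.ne'
  have nbx : b ≠ x := hbx.ne
  have nxy : x ≠ y := hxy.ne
  let m' : V → V := fun w => if w = a then y else if w = y then a else if w = b then x
    else if w = x then b else m w
  have ma : m' a = y := by simp [m']
  have my : m' y = a := by simp [m', nay.symm]
  have mb : m' b = x := by simp [m', nab.symm, hby]
  have mx : m' x = b := by simp [m', hax.symm, nxy, nbx.symm]
  have mo : ∀ w, w ≠ a → w ≠ y → w ≠ b → w ≠ x → m' w = m w := by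
    intro w h1 h2 h3 h4; simp [m', h1, h2, h3, h4]
  have hcases : ∀ w, w = a ∨ w = y ∨ w = b ∨ w = x ∨
      (w ≠ a ∧ w ≠ y ∧ w ≠ b ∧ w ≠ x) := by
    intro w
    by_cases h1 : w = a
    · exact Or.inl h1
    by_cases h2 : w = y
    · exact Or.inr (Or.inl h2)
    by_cases h3 : w = b
    · exact Or.inr (Or.inr (Or.inl h3))
    by_cases h4 : w = x
    · exact Or.inr (Or.inr (Or.inr (Or.inl h4)))
    · exact Or.inr (Or.inr (Or.inr (Or.inr ⟨h1, h2, h3, h4⟩)))
  have hm' : ∀ v, m' (m' v) = v := by
    intro w
    rcases hcases w with rfl | rfl | rfl | rfl | ⟨h1, h2, h3, h4⟩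
    · rw [ma, my]
    · rw [my, ma]
    · rw [mb, mx]
    · rw [mx, mb]
    · rw [mo w h1 h2 h3 h4, mo (m w), hm]
      · intro h; apply h3; rw [← hm w, h, hmab]
      · intro h; apply h4; rw [← hm w, h, hmyx]
      · intro h; apply h1; rw [← hm w, h, hmba]
      · intro h; apply h2; rw [← hm w, h, hmxy]
  have hadj' : ∀ v, G.Adj v (m' v) := by
    intro w
    rcases hcases w with rfl | rfl | rfl | rfl | ⟨h1, h2, h3, h4⟩
    · rw [ma]; exact hya.symm
    · rw [my]; exact hya
    · rw [mb]; exact hbx
    · rw [mx]; exact hbx.symm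
    · rw [mo w h1 h2 h3 h4]; exact hadj w
  -- an edge of the old 2-factor which is not in the new one is `a y` or `b x`
  have hlost : ∀ u v, m u ≠ v → m' u = v → s(u, v) = s(a, y) ∨ s(u, v) = s(b, x) := by
    intro u v h1 h2
    rcases hcases u with rfl | rfl | rfl | rfl | ⟨g1, g2, g3, g4⟩
    · left; rw [← h2, ma]
    · left; rw [← h2, my, Sym2.eq_swap]
    · right; rw [← h2, mb]
    · right; rw [← h2, mx, Sym2.eq_swap]
    · exfalso; exact h1 (by rw [← h2, mo u g1 g2 g3 g4])
  have hcyc := two_isCycles hc m hm hadj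
  have hra : (two G m' hm').Reachable a y := by
    apply bypass hcyc hFay
    intro u v hu huv hne
    refine ⟨huv.1, fun h => ?_⟩
    rcases hlost u v huv.2 h with h' | h'
    · exact hne h'
    · rw [Sym2.eq_iff] at h'
      rcases h' with ⟨rfl, rfl⟩ | ⟨rfl, rfl⟩
      · exact hnr hu
      · exact hnr (hu.trans hFbx.reachable.symm)
  have hrb : (two G m' hm').Reachable b x := by
    apply bypass hcyc hFbx
    intro u v hu huv hne
    refine ⟨huv.1, fun h => ?_⟩
    rcases hlost u v huv.2 h with h' | h'
    · rw [Sym2.eq_iff] at h'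
      rcases h' with ⟨rfl, rfl⟩ | ⟨rfl, rfl⟩
      · exact hnr hu.symm
      · exact hnr (hFay.reachable.trans hu.symm)
    · exact hne h'
  have hstep : ∀ u v, (two G m hm).Adj u v → (two G m' hm').Reachable u v := by
    intro u v huv
    by_cases h : m' u = v
    · rcases hlost u v huv.2 h with h' | h'
      · rw [Sym2.eq_iff] at h'
        rcases h' with ⟨rfl, rfl⟩ | ⟨rfl, rfl⟩
        · exact hra
        · exact hra.symm
      · rw [Sym2.eq_iff] at h'
        rcases h' with ⟨rfl, rfl⟩ | ⟨rfl, rfl⟩
        · exact hrb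
        · exact hrb.symm
    · exact Adj.reachable ⟨huv.1, h⟩
  have hreach : ∀ u v, (two G m hm).Reachable u v → (two G m' hm').Reachable u v := by
    intro u v h
    rw [reachable_iff_reflTransGen] at h
    induction h with
    | refl => exact Reachable.refl _
    | tail _ hbc ih => exact ih.trans (hstep _ _ hbc)
  let φ : (two G m hm).ConnectedComponent → (two G m' hm').ConnectedComponent :=
    Quot.map id (fun u v h => hreach u v h)
  have hsurj : Function.Surjective φ := by
    intro c
    induction c using Quot.ind with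
    | _ w => exact ⟨Quot.mk _ w, rfl⟩
  have hninj : ¬ Function.Injective φ := by
    intro hinj
    have h1 : φ ((two G m hm).connectedComponentMk a) = φ ((two G m hm).connectedComponentMk b) := by
      change (two G m' hm').connectedComponentMk a = (two G m' hm').connectedComponentMk b
      apply ConnectedComponent.sound
      exact Adj.reachable ⟨hGab, by rw [ma]; exact fun h => hby h.symm⟩
    exact hnr (ConnectedComponent.exact (hinj h1))
  have hlt : Nat.card (two G m' hm').ConnectedComponent < n := by
    rw [← hn]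
    haveI : Fintype (two G m hm).ConnectedComponent := Fintype.ofFinite _
    haveI : Fintype (two G m' hm').ConnectedComponent := Fintype.ofFinite _
    rw [Nat.card_eq_fintype_card, Nat.card_eq_fintype_card]
    exact Fintype.card_lt_of_surjective_not_injective φ hsurj hninj
  refine ih _ hlt m' hm' hadj' rfl ?_
  refine hconn.mono ?_
  intro u v huv
  refine ⟨huv.1, fun h => ?_⟩
  by_cases h0 : m u = v
  · exact huv.2 h0
  rcases hlost u v h0 h with h' | h'
  · rw [Sym2.eq_iff] at h'
    rcases h' with ⟨rfl, rfl⟩ | ⟨rfl, rfl⟩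
    · exact ⟨x, b, hxy.symm, hbx.symm, hGab.symm, hax, hby.symm⟩
    · exact ⟨b, x, hGab, hbx, hxy, hby.symm, hax⟩
  · rw [Sym2.eq_iff] at h'
    rcases h' with ⟨rfl, rfl⟩ | ⟨rfl, rfl⟩
    · exact ⟨y, a, hxy, hya, hGab, hby, hax.symm⟩
    · exact ⟨a, y, hGab.symm, hya.symm, hxy.symm, hax.symm, hby⟩

end Vale.Agent.P039.Sw
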